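import Vale.Agent.P346.AFFinal

namespace Vale.Agent.Results.P346.AllFields

universe u

theorem result :
    ∃ c C : ℝ, 0 < c ∧ ∃ n₀ : ℕ, ∀ (K : Type u) [Field K] (n : ℕ), n₀ ≤ n →
      (n : ℝ) ^ (c * Real.sqrt n) ≤ (Vale.Agent.P346.s K n : ℝ) ∧
        (Vale.Agent.P346.s K n : ℝ) ≤ (n : ℝ) ^ (C * Real.sqrt n) :=
  ⟨1 / 1024, 2, by norm_num, ⌈Real.exp 115200⌉₊ + 3843 * 3843, fun K _ _ hn =>
    ⟨Vale.Agent.P346.AF.s_lower_all K hn, Vale.Agent.P346.s_upper K (by omega)⟩⟩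

end Vale.Agent.Results.P346.AllFields
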