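import Vale.Agent.P346.Final

namespace Vale.Agent.Results.P346.Growth

universe u

theorem result :
    ∃ c C : ℝ, 0 < c ∧ ∃ n₀ : ℕ, ∀ (K : Type u) [Field K] [CharZero K] (n : ℕ), n₀ ≤ n →
      (n : ℝ) ^ (c * Real.sqrt n) ≤ (Vale.Agent.P346.s K n : ℝ) ∧
        (Vale.Agent.P346.s K n : ℝ) ≤ (n : ℝ) ^ (C * Real.sqrt n) :=
  ⟨1 / 768, 2, by norm_num, 3 ^ 256 * 3 ^ 256, fun K _ _ _ hn =>
    ⟨Vale.Agent.P346.s_lower K hn, Vale.Agent.P346.s_upper K (le_trans (by norm_num) hn)⟩⟩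

end Vale.Agent.Results.P346.Growth
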